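import Crest.Agent.R335.S10
import Crest.Agent.R335.S12
import Crest.Agent.R335.S13
import Crest.Agent.R335.S14
import Crest.Agent.R335.S15
import Crest.Agent.R335.P4
import Crest.Agent.R335.P6
import Crest.Agent.R335.P7

/-!
# R335/Lib: the whole library (Sobolev calculus `S*`, geometry `Geo*`, potential theory `P*`)
-/

set_option autoImplicit false

namespace Crest.Agent.R335

open MeasureTheory Set Filter Topology
open scoped Gradient RealInnerProductSpace ENNReal ContDiff
open Crest.MathPhysics.ThreeBody



end Crest.Agent.R335
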