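import Crest.Agent.R335.S10a

/-!
# R335/S10: the kinetic energy of the statement (Fourier side) and weak gradients

See `R338.Kin_F` (`kinF_pair`, `kinF_deriv`, `kinF_planch`, `kin_eq`) and `R338.Kin_Appr` for the same computation in
a sister prelude.  If the real and imaginary part of `f` are in `H¹`, approximate them by test functions
(`H1.dense`), for which `𝓕 (∂ₐ f) = 2 π i ⟪ξ, a⟫ 𝓕 f`; both sides converge in `L²` along a subsequence a.e.
Conversely put `Gₐ = 𝓕⁻¹ (2 π i ⟪ξ, a⟫ 𝓕 f)` and pair with Schwartz functions.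
-/

set_option autoImplicit false

namespace Crest.Agent.R335

open MeasureTheory Set Filter Topology
open scoped Gradient RealInnerProductSpace ENNReal ContDiff
open Crest.MathPhysics.ThreeBody

section gen

open SchwartzMap LineDeriv
open scoped FourierTransform

variable {E : Type} [NormedAddCommGroup E] [InnerProductSpace ℝ E] [FiniteDimensional ℝ E]
  [MeasurableSpace E] [BorelSpace E]

theorem s10_pair (f : Lp ℂ 2 (volume : Measure E)) (φ : 𝓢(E, ℂ)) :
    ∫ x, φ x * (𝓕 f : Lp ℂ 2 (volume : Measure E)) x = ∫ x, (𝓕 φ : 𝓢(E, ℂ)) x * f x := by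
  have h := Lp.fourier_toTemperedDistribution_eq f
  have h2 := congrArg (fun T : 𝓢'(E, ℂ) => T φ) h
  simp only [TemperedDistribution.fourier_apply, Lp.toTemperedDistribution_apply, smul_eq_mul] at h2
  exact h2.symm

theorem s10_weak (f D : Lp ℂ 2 (volume : Measure E)) (m : E)
    (h : ∀ᵐ ξ, (𝓕 D : Lp ℂ 2 (volume : Measure E)) ξ =
      (2 * Real.pi * Complex.I) * ((inner ℝ ξ m : ℝ) : ℂ) * (𝓕 f : Lp ℂ 2 (volume : Measure E)) ξ)
    (φ : 𝓢(E, ℂ)) : ∫ x, (∂_{m} φ : 𝓢(E, ℂ)) x * f x = -∫ x, φ x * D x := by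
  obtain ⟨χ, rfl⟩ : ∃ χ : 𝓢(E, ℂ), φ = 𝓕 χ := ⟨𝓕⁻ φ, (FourierTransform.fourier_fourierInv_eq φ).symm⟩
  have ht : (fun x : E => inner ℝ x m).HasTemperateGrowth :=
    ((innerSL ℝ).flip m).hasTemperateGrowth
  rw [lineDerivOp_fourier_eq, ← s10_pair, ← s10_pair, ← integral_neg]
  apply integral_congr_ae
  filter_upwards [h] with ξ hξ
  rw [hξ]
  simp [ht]
  ring

theorem s10_real (f D : E → ℂ) (hf : MemLp f 2 volume) (hD : MemLp D 2 volume) (m : E)
    (h : ∀ φ : 𝓢(E, ℂ), ∫ x, (∂_{m} φ : 𝓢(E, ℂ)) x * f x = -∫ x, φ x * D x) (φ : E → ℝ) (hφ : Tst univ φ) :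
    (∫ x, (f x).re * fderiv ℝ φ x m = -∫ x, (D x).re * φ x) ∧
      ∫ x, (f x).im * fderiv ℝ φ x m = -∫ x, (D x).im * φ x := by
  have hg₁ : HasCompactSupport (Complex.ofRealCLM ∘ φ) := hφ.cpt.comp_left rfl
  have hsm := hφ.sm
  have hg₂ : ContDiff ℝ ∞ (Complex.ofRealCLM ∘ φ) := by fun_prop
  have h1 := h (hg₁.toSchwartzMap hg₂)
  have e1 : ∀ x, (hg₁.toSchwartzMap hg₂) x = (φ x : ℂ) := fun x => rfl
  have e2 : ∀ x, (∂_{m} (hg₁.toSchwartzMap hg₂) : 𝓢(E, ℂ)) x = ((fderiv ℝ φ x m : ℝ) : ℂ) := by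
    intro x
    have := (Complex.ofRealCLM.hasFDerivAt.comp x (hsm.differentiable (by simp) x).hasFDerivAt).fderiv
    change fderiv ℝ (Complex.ofRealCLM ∘ φ) x m = _
    rw [this]
    rfl
  simp only [e1, e2] at h1
  have i1 : Integrable fun x => ((fderiv ℝ φ x m : ℝ) : ℂ) * f x :=
    ((s1a_mD hφ m).ofReal (K := ℂ)).integrable_mul hf
  have i2 : Integrable fun x => ((φ x : ℝ) : ℂ) * D x :=
    ((s1a_mφ hφ).ofReal (K := ℂ)).integrable_mul hD
  have r1 := integral_re i1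
  have r2 := integral_re i2
  have j1 := integral_im i1
  have j2 := integral_im i2
  rw [h1] at r1 j1
  simp only [RCLike.re_to_complex, RCLike.im_to_complex, Complex.re_ofReal_mul, Complex.im_ofReal_mul,
    Complex.neg_re, Complex.neg_im] at r1 r2 j1 j2
  simp only [mul_comm (f _).re, mul_comm (f _).im, mul_comm (D _).re, mul_comm (D _).im]
  exact ⟨by rw [r1, r2], by rw [j1, j2]⟩

end gen

theorem s10_of_coord {f : E9 → ℝ} (hf : MemLp f 2 volume) (D : Fin 3 × Fin 3 → E9 → ℝ)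
    (hD : ∀ c, MemLp (D c) 2 volume)
    (h : ∀ c φ, Tst univ φ → ∫ x, f x * fderiv ℝ φ x (EuclideanSpace.single c 1) = -∫ x, D c x * φ x) :
    H1 f fun x => ∑ c, D c x • EuclideanSpace.single c (1 : ℝ) := by
  refine ⟨hf, memLp_finsetSum _ fun c _ =>
    (ContinuousLinearMap.toSpanSingleton ℝ (EuclideanSpace.single c (1 : ℝ) : E9)).comp_memLp' (hD c),
    fun φ hφ a => ?_⟩
  have ea : a = ∑ c, a c • EuclideanSpace.single c (1 : ℝ) := by
    ext d
    simp [Pi.single_apply]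
  have e1 : ∀ x, f x * fderiv ℝ φ x a = ∑ c, a c * (f x * fderiv ℝ φ x (EuclideanSpace.single c 1)) := by
    intro x
    conv_lhs => rw [ea]
    rw [map_sum, Finset.mul_sum]
    refine Finset.sum_congr rfl fun c _ => ?_
    rw [map_smul, smul_eq_mul]
    ring
  have e2 : ∀ x, ⟪∑ c, D c x • EuclideanSpace.single c (1 : ℝ), a⟫ * φ x = ∑ c, a c * (D c x * φ x) := by
    intro x
    rw [sum_inner, Finset.sum_mul]
    refine Finset.sum_congr rfl fun c _ => ?_
    rw [real_inner_smul_left, EuclideanSpace.inner_single_left]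
    simp
    ring
  simp only [e1, e2]
  have i2 : ∀ c, Integrable fun x => D c x * φ x := fun c => (hD c).integrable_mul (s1a_mφ hφ)
  rw [integral_finsetSum _ fun c _ => (s1a_i1 hf hφ _).const_mul _,
    integral_finsetSum _ fun c _ => (i2 c).const_mul _, ← Finset.sum_neg_distrib]
  refine Finset.sum_congr rfl fun c _ => ?_
  rw [integral_const_mul, integral_const_mul, h c φ hφ, mul_neg]

open scoped FourierTransform in

theorem h1_of_kinetic {f : E9 → ℂ} (h : kineticOne f < ⊤) :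
    ∃ G K : E9 → E9, H1 (fun x => (f x).re) G ∧ H1 (fun x => (f x).im) K := by
  unfold kineticOne at h
  by_cases hf : MemLp f 2 volume
  swap
  · rw [dif_neg hf] at h
    exact absurd h (lt_irrefl _)
  rw [dif_pos hf] at h
  set g : Lp ℂ 2 (volume : Measure E9) := 𝓕 (hf.toLp f) with hg
  have hJ : ∫⁻ ξ, ENNReal.ofReal ((2 * Real.pi * ‖ξ‖) ^ 2) * ‖g ξ‖ₑ ^ 2 < ⊤ := by
    by_contra hn
    rw [not_lt, top_le_iff] at hn
    rw [hn, ENNReal.mul_top (by simp)] at h
    exact lt_irrefl _ h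
  have hm : ∀ c : Fin 3 × Fin 3, MemLp (fun ξ : E9 => (2 * Real.pi * Complex.I) *
      ((inner ℝ ξ (EuclideanSpace.single c (1 : ℝ) : E9) : ℝ) : ℂ) * g ξ) 2 volume := by
    intro c
    have hc : Continuous fun ξ : E9 => (2 * Real.pi * Complex.I) *
      ((inner ℝ ξ (EuclideanSpace.single c (1 : ℝ) : E9) : ℝ) : ℂ) := by fun_prop
    refine ⟨hc.aestronglyMeasurable.mul (Lp.aestronglyMeasurable g), ?_⟩
    rw [eLpNorm_lt_top_iff_lintegral_rpow_enorm_lt_top (by norm_num) (by norm_num)]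
    refine lt_of_le_of_lt (lintegral_mono fun ξ => ?_) hJ
    simp only [ENNReal.toReal_ofNat, ENNReal.rpow_ofNat]
    rw [enorm_mul, mul_pow]
    gcongr
    rw [← ofReal_norm, ← ENNReal.ofReal_pow (norm_nonneg _)]
    apply ENNReal.ofReal_le_ofReal
    gcongr
    have h1 : |inner ℝ ξ (EuclideanSpace.single c (1 : ℝ) : E9)| ≤ ‖ξ‖ := by
      simpa using abs_real_inner_le_norm ξ (EuclideanSpace.single c (1 : ℝ) : E9)
    rw [norm_mul, Complex.norm_real, Real.norm_eq_abs]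
    have h2 : ‖(2 * Real.pi * Complex.I : ℂ)‖ = 2 * Real.pi := by
      simp [abs_of_pos Real.pi_pos]
    rw [h2]
    gcongr
  have hD : ∀ c : Fin 3 × Fin 3, ∃ D : E9 → ℂ, MemLp D 2 volume ∧ ∀ φ, Tst univ φ →
      (∫ x, (f x).re * fderiv ℝ φ x (EuclideanSpace.single c 1) = -∫ x, (D x).re * φ x) ∧
      ∫ x, (f x).im * fderiv ℝ φ x (EuclideanSpace.single c 1) = -∫ x, (D x).im * φ x := by
    intro c
    set D : Lp ℂ 2 (volume : Measure E9) := 𝓕⁻ ((hm c).toLp _) with hDd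
    refine ⟨D, Lp.memLp D, s10_real f D hf (Lp.memLp D) _ fun φ => ?_⟩
    rw [← s10_weak (hf.toLp f) D (EuclideanSpace.single c 1) ?_ φ]
    · apply integral_congr_ae
      filter_upwards [hf.coeFn_toLp] with x hx
      rw [hx]
    · rw [hDd, FourierTransform.fourier_fourierInv_eq]
      exact (hm c).coeFn_toLp
  choose D hD1 hD2 using hD
  exact ⟨_, _, s10_of_coord (hf.re (𝕜 := ℂ)) (fun c x => (D c x).re) (fun c => (hD1 c).re (𝕜 := ℂ))
      fun c φ hφ => (hD2 c φ hφ).1,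
    s10_of_coord (hf.im (𝕜 := ℂ)) (fun c x => (D c x).im) (fun c => (hD1 c).im (𝕜 := ℂ))
      fun c φ hφ => (hD2 c φ hφ).2⟩

end Crest.Agent.R335
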