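import Crest.Agent.R335.S4

/-!
# R335/S10: the kinetic energy of the statement (Fourier side) and weak gradients

See `R338.Kin_F` (`kinF_pair`, `kinF_deriv`, `kinF_planch`, `kin_eq`) and `R338.Kin_Appr` for the same computation in
a sister prelude.  If the real and imaginary part of `f` are in `H¹`, approximate them by test functions
(`H1.dense`), for which `𝓕 (∂ₐ f) = 2 π i ⟪ξ, a⟫ 𝓕 f`; both sides converge in `L²` along a subsequence a.e.
Conversely put `Gₐ = 𝓕⁻¹ (2 π i ⟪ξ, a⟫ 𝓕 f)` and pair with Schwartz functions.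
-/

set_option autoImplicit false

namespace Crest.Agent.R335

open MeasureTheory Set Filter Topology
open scoped Gradient RealInnerProductSpace ENNReal ContDiff
open Crest.MathPhysics.ThreeBody

section gen

open SchwartzMap LineDeriv
open scoped FourierTransform

variable {E : Type} [NormedAddCommGroup E] [InnerProductSpace ℝ E] [FiniteDimensional ℝ E]
  [MeasurableSpace E] [BorelSpace E]

theorem s10a_pair (f : Lp ℂ 2 (volume : Measure E)) (φ : 𝓢(E, ℂ)) :
    ∫ x, φ x * (𝓕 f : Lp ℂ 2 (volume : Measure E)) x = ∫ x, (𝓕 φ : 𝓢(E, ℂ)) x * f x := by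
  have h := Lp.fourier_toTemperedDistribution_eq f
  have h2 := congrArg (fun T : 𝓢'(E, ℂ) => T φ) h
  simp only [TemperedDistribution.fourier_apply, Lp.toTemperedDistribution_apply, smul_eq_mul] at h2
  exact h2.symm

theorem s10a_norm (f : Lp ℂ 2 (volume : Measure E)) :
    ∫⁻ x, ‖f x‖ₑ ^ 2 = ENNReal.ofReal ‖f‖ ^ 2 := by
  have h := eLpNorm_nnreal_pow_eq_lintegral (f := f) (μ := (volume : Measure E)) (p := 2) (by norm_num)
  simp only [ENNReal.coe_ofNat, NNReal.coe_ofNat, ENNReal.rpow_ofNat] at h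
  rw [← h, Lp.norm_def, ENNReal.ofReal_toReal (Lp.eLpNorm_ne_top f)]

theorem s10a_planch (f : Lp ℂ 2 (volume : Measure E)) :
    ∫⁻ x, ‖(𝓕 f : Lp ℂ 2 (volume : Measure E)) x‖ₑ ^ 2 = ∫⁻ x, ‖f x‖ₑ ^ 2 := by
  rw [s10a_norm, s10a_norm, Lp.norm_fourier_eq]

theorem s10a_lint {X F : Type} [MeasurableSpace X] {μ : Measure X} [NormedAddCommGroup F] {f : X → F}
    (hf : MemLp f 2 μ) : ∫⁻ x, ‖f x‖ₑ ^ 2 ∂μ = ENNReal.ofReal (∫ x, ‖f x‖ ^ 2 ∂μ) := by
  rw [ofReal_integral_eq_lintegral_ofReal]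
  · apply lintegral_congr
    intro x
    rw [← ofReal_norm, ← ENNReal.ofReal_pow (norm_nonneg _)]
  · exact (memLp_two_iff_integrable_sq_norm hf.1).1 hf
  · exact Filter.Eventually.of_forall fun x => by positivity

/-- a real linear functional of a Schwartz function is in `H¹` -/
theorem s10a_h1_schwartz (Ψ : 𝓢(E, ℂ)) (L : ℂ →L[ℝ] ℝ) :
    H1 (fun x => L (Ψ x)) (∇ fun x => L (Ψ x)) ∧
      ∀ x m, ⟪(∇ fun x => L (Ψ x)) x, m⟫ = L (fderiv ℝ Ψ x m) := by
  have hs : ContDiff ℝ 1 fun x => L (Ψ x) := L.contDiff.comp (Ψ.smooth 1)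
  have hD : ∀ x, fderiv ℝ (fun x => L (Ψ x)) x = L.comp (fderiv ℝ Ψ x) := fun x =>
    (L.hasFDerivAt.comp x (Ψ.differentiableAt (x := x)).hasFDerivAt).fderiv
  refine ⟨H1.of_c1 hs (L.comp_memLp' (Ψ.memLp 2 volume)) ?_, fun x m => ?_⟩
  · have h1 : MemLp (fun x => fderiv ℝ Ψ x) 2 (volume : Measure E) :=
      (SchwartzMap.fderivCLM ℝ E ℂ Ψ).memLp 2 volume
    have hc : Continuous (∇ fun x => L (Ψ x)) :=
      (InnerProductSpace.toDual ℝ E).symm.continuous.comp (hs.continuous_fderiv (by norm_num))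
    refine h1.of_le_mul (c := ‖L‖) hc.aestronglyMeasurable (Eventually.of_forall fun x => ?_)
    rw [gradient, LinearIsometryEquiv.norm_map, hD]
    exact L.opNorm_comp_le _
  · rw [gradient, InnerProductSpace.toDual_symm_apply, hD]
    rfl

/-- integration by parts against a Schwartz function -/
theorem s10a_ibp {u : E → ℝ} {G : E → E} (h : H1 u G) (Ψ : 𝓢(E, ℂ)) (m : E) :
    ∫ x, Ψ x * ((⟪G x, m⟫ : ℝ) : ℂ) = -∫ x, fderiv ℝ Ψ x m * (u x : ℂ) := by
  have hG : MemLp (fun x => ((⟪G x, m⟫ : ℝ) : ℂ)) 2 (volume : Measure E) :=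
    (h.mG.inner_const m).ofReal (K := ℂ)
  have hu : MemLp (fun x => (u x : ℂ)) 2 (volume : Measure E) := h.mf.ofReal (K := ℂ)
  have i1 : Integrable fun x => Ψ x * ((⟪G x, m⟫ : ℝ) : ℂ) := (Ψ.memLp 2 volume).integrable_mul hG
  have i2 : Integrable fun x => fderiv ℝ Ψ x m * (u x : ℂ) :=
    ((∂_{m} Ψ : 𝓢(E, ℂ)).memLp 2 volume).integrable_mul hu
  have key : ∀ L : ℂ →L[ℝ] ℝ, L (∫ x, Ψ x * ((⟪G x, m⟫ : ℝ) : ℂ)) = -L (∫ x, fderiv ℝ Ψ x m * (u x : ℂ)) := by
    intro L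
    obtain ⟨hL, hg⟩ := s10a_h1_schwartz Ψ L
    have e := H1.ibp h hL m
    simp only [hg] at e
    rw [← L.integral_comp_comm i1, ← L.integral_comp_comm i2]
    have e1 : ∀ (z : ℂ) (r : ℝ), L (z * (r : ℂ)) = r * L z := by
      intro z r
      rw [mul_comm, ← Complex.real_smul, map_smul, smul_eq_mul]
    simp only [e1]
    rw [e, neg_neg]
  apply Complex.ext
  · simpa using key Complex.reCLM
  · simpa using key Complex.imCLM

theorem s10a_memLp {u v : E → ℝ} (hu : MemLp u 2 volume) (hv : MemLp v 2 volume) :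
    MemLp (fun x => (u x : ℂ) + (v x : ℂ) * Complex.I) 2 (volume : Measure E) :=
  (hu.ofReal (K := ℂ)).add ((hv.ofReal (K := ℂ)).mul_const Complex.I)

theorem s10a_deriv {f : E → ℂ} {G K : E → E} (h1 : H1 (fun x => (f x).re) G) (h2 : H1 (fun x => (f x).im) K)
    (hf : MemLp f 2 volume) (m : E)
    (hm : MemLp (fun x => ((⟪G x, m⟫ : ℝ) : ℂ) + ((⟪K x, m⟫ : ℝ) : ℂ) * Complex.I) 2 volume) :
    ∀ᵐ ξ, (𝓕 (hm.toLp _) : Lp ℂ 2 (volume : Measure E)) ξ =
      (2 * Real.pi * Complex.I) * ((inner ℝ ξ m : ℝ) : ℂ) *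
        (𝓕 (hf.toLp f) : Lp ℂ 2 (volume : Measure E)) ξ := by
  apply ae_eq_of_integral_contDiff_smul_eq
  · exact (Lp.memLp _).locallyIntegrable (by norm_num)
  · have h1 : LocallyIntegrable (fun ξ => (𝓕 (hf.toLp f) : Lp ℂ 2 (volume : Measure E)) ξ) volume :=
      (Lp.memLp _).locallyIntegrable (by norm_num)
    have hc : Continuous fun ξ : E => (2 * Real.pi * Complex.I) * ((inner ℝ ξ m : ℝ) : ℂ) := by
      fun_prop
    rw [← locallyIntegrableOn_univ] at h1 ⊢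
    exact h1.continuousOn_mul hc.continuousOn isOpen_univ.isLocallyClosed
  · intro g g_smooth g_cpt
    have hg₁ : HasCompactSupport (Complex.ofRealCLM ∘ g) := g_cpt.comp_left rfl
    have hg₂ : ContDiff ℝ ∞ (Complex.ofRealCLM ∘ g) := by fun_prop
    set φ : 𝓢(E, ℂ) := hg₁.toSchwartzMap hg₂ with hφ
    have hφx : ∀ x, φ x = (g x : ℂ) := fun x => rfl
    have ht : (fun x : E => inner ℝ x m).HasTemperateGrowth :=
      ((innerSL ℝ).flip m).hasTemperateGrowth
    set ψ : 𝓢(E, ℂ) := -(2 * Real.pi * Complex.I) • smulLeftCLM ℂ (fun x : E => inner ℝ x m) φ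
      with hψ
    have hψx : ∀ x, ψ x = -((2 * Real.pi * Complex.I) * ((inner ℝ x m : ℝ) : ℂ) * g x) := by
      intro x
      simp [hψ, ht, hφx]
      ring
    have e1 : ∫ x, g x • (𝓕 (hm.toLp _) : Lp ℂ 2 (volume : Measure E)) x =
        ∫ x, (𝓕 φ : 𝓢(E, ℂ)) x * (((⟪G x, m⟫ : ℝ) : ℂ) + ((⟪K x, m⟫ : ℝ) : ℂ) * Complex.I) := by
      have := s10a_pair (hm.toLp _) φ
      simp only [hφx] at this
      simp only [Complex.real_smul]
      rw [this]
      apply integral_congr_ae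
      filter_upwards [hm.coeFn_toLp] with x hx
      rw [hx]
    have e2 : ∫ x, (𝓕 φ : 𝓢(E, ℂ)) x * (((⟪G x, m⟫ : ℝ) : ℂ) + ((⟪K x, m⟫ : ℝ) : ℂ) * Complex.I) =
        - ∫ x, fderiv ℝ (𝓕 φ : 𝓢(E, ℂ)) x m * f x := by
      set Ψ : 𝓢(E, ℂ) := 𝓕 φ
      have i1 : Integrable fun x => Ψ x * ((⟪G x, m⟫ : ℝ) : ℂ) :=
        (Ψ.memLp 2 volume).integrable_mul ((h1.mG.inner_const m).ofReal (K := ℂ))
      have i2 : Integrable fun x => Ψ x * ((⟪K x, m⟫ : ℝ) : ℂ) :=
        (Ψ.memLp 2 volume).integrable_mul ((h2.mG.inner_const m).ofReal (K := ℂ))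
      have i3 : Integrable fun x => fderiv ℝ Ψ x m * (((f x).re : ℝ) : ℂ) :=
        ((∂_{m} Ψ : 𝓢(E, ℂ)).memLp 2 volume).integrable_mul (h1.mf.ofReal (K := ℂ))
      have i4 : Integrable fun x => fderiv ℝ Ψ x m * (((f x).im : ℝ) : ℂ) :=
        ((∂_{m} Ψ : 𝓢(E, ℂ)).memLp 2 volume).integrable_mul (h2.mf.ofReal (K := ℂ))
      have a1 : ∀ x, Ψ x * (((⟪G x, m⟫ : ℝ) : ℂ) + ((⟪K x, m⟫ : ℝ) : ℂ) * Complex.I) =
          Ψ x * ((⟪G x, m⟫ : ℝ) : ℂ) + Ψ x * ((⟪K x, m⟫ : ℝ) : ℂ) * Complex.I := fun x => by ring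
      have a2 : ∀ x, fderiv ℝ Ψ x m * f x =
          fderiv ℝ Ψ x m * (((f x).re : ℝ) : ℂ) + fderiv ℝ Ψ x m * (((f x).im : ℝ) : ℂ) * Complex.I := fun x => by
        conv_lhs => rw [← Complex.re_add_im (f x)]
        ring
      simp only [a1, a2]
      rw [integral_add i1 (i2.mul_const _), integral_add i3 (i4.mul_const _), integral_mul_const,
        integral_mul_const, s10a_ibp h1, s10a_ibp h2]
      ring
    have e3 : ∫ x, fderiv ℝ (𝓕 φ : 𝓢(E, ℂ)) x m * f x =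
        ∫ x, ψ x * (𝓕 (hf.toLp f) : Lp ℂ 2 (volume : Measure E)) x := by
      rw [s10a_pair, hψ, ← lineDerivOp_fourier_eq]
      apply integral_congr_ae
      filter_upwards [hf.coeFn_toLp] with x hx
      rw [hx]
      rfl
    rw [e1, e2, e3, ← integral_neg]
    apply integral_congr_ae
    filter_upwards with x
    rw [hψx, Complex.real_smul]
    ring

end gen

open scoped FourierTransform in
theorem kinetic_of_h1 {f : E9 → ℂ} {G K : E9 → E9} (h1 : H1 (fun x => (f x).re) G) (h2 : H1 (fun x => (f x).im) K) :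
    kineticOne f = ENNReal.ofReal ((1 / 2) * ((∫ x, ‖G x‖ ^ 2) + ∫ x, ‖K x‖ ^ 2)) := by
  have hf : MemLp f 2 volume := by
    have := s10a_memLp h1.mf h2.mf
    simpa only [Complex.re_add_im] using this
  have hG : ∀ c : Fin 3 × Fin 3, MemLp (fun x => ⟪G x, EuclideanSpace.single c (1 : ℝ)⟫) 2 volume :=
    fun c => h1.mG.inner_const _
  have hK : ∀ c : Fin 3 × Fin 3, MemLp (fun x => ⟪K x, EuclideanSpace.single c (1 : ℝ)⟫) 2 volume :=
    fun c => h2.mG.inner_const _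
  have hc := fun c => s10a_memLp (hG c) (hK c)
  have e1 : ∀ c : Fin 3 × Fin 3, ENNReal.ofReal ((∫ x, G x c ^ 2) + ∫ x, K x c ^ 2) =
      ∫⁻ ξ : E9, ENNReal.ofReal ((2 * Real.pi * ξ c) ^ 2) *
        ‖(𝓕 (hf.toLp f) : Lp ℂ 2 (volume : Measure E9)) ξ‖ₑ ^ 2 := by
    intro c
    have h0 : ENNReal.ofReal ((∫ x, G x c ^ 2) + ∫ x, K x c ^ 2) = ∫⁻ x, ‖((hc c).toLp _) x‖ₑ ^ 2 := by
      rw [s10a_lint (Lp.memLp _)]
      congr 1
      have i1 := (hG c).integrable_sq
      have i2 := (hK c).integrable_sq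
      simp only [EuclideanSpace.inner_single_right, conj_trivial, one_mul] at i1 i2
      rw [← integral_add i1 i2]
      apply integral_congr_ae
      filter_upwards [(hc c).coeFn_toLp] with x hx
      rw [hx, Complex.sq_norm, Complex.normSq_add_mul_I]
      simp [EuclideanSpace.inner_single_right]
    rw [h0, ← s10a_planch]
    apply lintegral_congr_ae
    filter_upwards [s10a_deriv h1 h2 hf _ (hc c)] with ξ hξ
    rw [hξ, enorm_mul, mul_pow]
    congr 1
    rw [← ofReal_norm, ← ENNReal.ofReal_pow (norm_nonneg _)]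
    congr 1
    simp [EuclideanSpace.inner_single_right, mul_pow]
  have iG : ∀ c : Fin 3 × Fin 3, Integrable fun x => G x c ^ 2 := fun c => by
    simpa only [EuclideanSpace.inner_single_right, conj_trivial, one_mul] using (hG c).integrable_sq
  have iK : ∀ c : Fin 3 × Fin 3, Integrable fun x => K x c ^ 2 := fun c => by
    simpa only [EuclideanSpace.inner_single_right, conj_trivial, one_mul] using (hK c).integrable_sq
  have e2 : (∫ x, ‖G x‖ ^ 2) + ∫ x, ‖K x‖ ^ 2 = ∑ c : Fin 3 × Fin 3, ((∫ x, G x c ^ 2) + ∫ x, K x c ^ 2) := by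
    simp only [EuclideanSpace.real_norm_sq_eq]
    rw [integral_finsetSum _ fun c _ => iG c, integral_finsetSum _ fun c _ => iK c, Finset.sum_add_distrib]
  unfold kineticOne
  rw [dif_pos hf, e2, ENNReal.ofReal_mul (by norm_num), ENNReal.ofReal_sum_of_nonneg fun c _ =>
    add_nonneg (integral_nonneg fun x => sq_nonneg _) (integral_nonneg fun x => sq_nonneg _)]
  congr 1
  · rw [ENNReal.ofReal_div_of_pos (by norm_num)]; simp
  simp only [e1]
  rw [← lintegral_finsetSum']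
  · apply lintegral_congr
    intro ξ
    rw [← Finset.sum_mul, ← ENNReal.ofReal_sum_of_nonneg (fun c _ => sq_nonneg _)]
    congr 2
    simp only [mul_pow]
    rw [← Finset.mul_sum, EuclideanSpace.real_norm_sq_eq]
  · intro c _
    refine AEMeasurable.fun_mul ?_ ?_
    · fun_prop
    · exact (Lp.aestronglyMeasurable _).enorm.pow_const 2

end Crest.Agent.R335
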